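import Mathlib.RingTheory.Valuation.LocalSubring
import Mathlib.RingTheory.Invariant.Profinite
import Mathlib.FieldTheory.Galois.Infinite
import Mathlib.FieldTheory.Galois.Profinite
import Mathlib.FieldTheory.IsSepClosed
import Mathlib.Topology.Ultrafilter

/-!
# P022K, block DY: the space of the valuation rings of `K` over a valuation ring `A` of `C`
-/

set_option autoImplicit false
set_option linter.unusedSectionVars false

open Set Filter Topology Polynomial

noncomputable section

namespace Vale.Agent.P022K.DY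

/-! ## valuation rings -/

section rings

variable {K M : Type} [Field K] [Field M]

theorem nu_comap (f : K →+* M) (V : ValuationSubring M) (x : K) :
    x ∈ (V.comap f).nonunits ↔ f x ∈ V.nonunits := by
  simp only [ValuationSubring.mem_nonunits_iff_or, ValuationSubring.mem_comap, map_inv₀,
    map_eq_zero]

theorem nu_mul {V : ValuationSubring K} {x y : K} (hx : x ∈ V) (hy : y ∈ V.nonunits) :
    x * y ∈ V.nonunits := by
  rw [ValuationSubring.mem_nonunits_iff] at *
  rw [map_mul]
  exact (mul_le_of_le_one_left' ((V.valuation_le_one_iff x).2 hx)).trans_lt hy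

theorem one_nu (V : ValuationSubring K) : (1 : K) ∉ V.nonunits := by
  simp [ValuationSubring.mem_nonunits_iff]

/-- specialisations lift along any extension of fields -/
theorem down (f : K →+* M) (W : ValuationSubring M) (O : ValuationSubring K)
    (h : O ≤ W.comap f) : ∃ V : ValuationSubring M, V ≤ W ∧ V.comap f = O := by
  let B : Subring M :=
    { carrier := {y | ∃ a ∈ O, y - f a ∈ W.nonunits}
      mul_mem' := by
        rintro y z ⟨a, ha, hy⟩ ⟨b, hb, hz⟩
        refine ⟨a * b, mul_mem ha hb, ?_⟩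
        have e : y * z - f (a * b) = f a * (z - f b) + (f b * (y - f a) + (y - f a) * (z - f b)) := by
          rw [map_mul]; ring
        rw [e]
        exact add_mem (nu_mul (h ha) hz) (add_mem (nu_mul (h hb) hy) (mul_mem hy hz))
      one_mem' := ⟨1, one_mem _, by simp⟩
      add_mem' := by
        rintro y z ⟨a, ha, hy⟩ ⟨b, hb, hz⟩
        exact ⟨a + b, add_mem ha hb, by
          rw [show y + z - f (a + b) = y - f a + (z - f b) by rw [map_add]; ring]
          exact add_mem hy hz⟩
      zero_mem' := ⟨0, zero_mem _, by simp⟩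
      neg_mem' := by
        rintro y ⟨a, ha, hy⟩
        exact ⟨-a, neg_mem ha, by
          rw [show -y - f (-a) = -(y - f a) by rw [map_neg]; ring]
          exact neg_mem hy⟩ }
  let I : Ideal B :=
    { carrier := {y | ∃ a ∈ O.nonunits, y.1 - f a ∈ W.nonunits}
      add_mem' := by
        rintro y z ⟨a, ha, hy⟩ ⟨b, hb, hz⟩
        exact ⟨a + b, add_mem ha hb, by
          rw [show (y + z).1 - f (a + b) = y.1 - f a + (z.1 - f b) by
            rw [map_add, Subring.coe_add]; ring]
          exact add_mem hy hz⟩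
      zero_mem' := ⟨0, zero_mem _, by simp⟩
      smul_mem' := by
        rintro ⟨y, a, ha, hy⟩ z ⟨b, hb, hz⟩
        refine ⟨a * b, nu_mul ha hb, ?_⟩
        have e : y * z.1 - f (a * b) =
            f a * (z.1 - f b) + (f b * (y - f a) + (y - f a) * (z.1 - f b)) := by
          rw [map_mul]; ring
        change y * z.1 - f (a * b) ∈ _
        rw [e]
        exact add_mem (nu_mul (h ha) hz)
          (add_mem (nu_mul (h (O.nonunits_subset hb)) hy) (mul_mem hy hz)) }
  have nn : (W.comap f).nonunits ≤ O.nonunits := ValuationSubring.nonunits_le_nonunits.2 h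
  have hI : I ≠ ⊤ := fun e => by
    obtain ⟨a, ha, h1⟩ : (1 : B) ∈ I := e ▸ Submodule.mem_top
    have : 1 - a ∈ O.nonunits := nn ((nu_comap f W _).2 (by simpa using h1))
    exact one_nu O (by simpa using add_mem this ha)
  obtain ⟨V, h1, h2⟩ := Ideal.image_subset_nonunits_valuationSubring I hI
  refine ⟨V, ValuationSubring.nonunits_le_nonunits.1 fun y hy => ?_, le_antisymm
    (ValuationSubring.nonunits_le_nonunits.1 fun a ha => ?_) fun a ha => ?_⟩
  · exact h2 ⟨⟨y, 0, zero_mem _, by simpa using hy⟩, ⟨0, zero_mem _, by simpa using hy⟩, rfl⟩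
  · exact (nu_comap f V a).2 (h2 ⟨⟨f a, a, O.nonunits_subset ha, by simp⟩,
      ⟨a, ha, by simp⟩, rfl⟩)
  · exact h1 (show f a ∈ B from ⟨a, ha, by simp⟩)

/-- valuation rings extend -/
theorem ex_ext (f : K →+* M) (O : ValuationSubring K) :
    ∃ V : ValuationSubring M, V.comap f = O :=
  (down f ⊤ O fun _ _ => ValuationSubring.mem_top _).imp fun _ h => h.2

/-- a relation with coefficients in `O`, one of them equal to `1` -/
theorem ex_rel [Algebra K M] (O : ValuationSubring K) {x : M} (hx : IsAlgebraic K x) :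
    ∃ (p : K[X]) (j : ℕ), aeval x p = 0 ∧ (∀ i, p.coeff i ∈ O) ∧ p.coeff j = 1 := by
  obtain ⟨p, p0, hp⟩ := hx
  obtain ⟨j, hj, mx⟩ := p.support.exists_max_image (fun i => O.valuation (p.coeff i))
    (support_nonempty.2 p0)
  have c0 : p.coeff j ≠ 0 := mem_support_iff.1 hj
  refine ⟨C (p.coeff j)⁻¹ * p, j, by simp [hp], fun i => ?_, by simp [c0]⟩
  rw [coeff_C_mul, ← O.valuation_le_one_iff, map_mul, map_inv₀,
    inv_mul_le_one₀ (zero_lt_iff.2 ((Valuation.ne_zero_iff _).2 c0))]
  by_cases hi : i ∈ p.support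
  · exact mx i hi
  · rw [notMem_support_iff.1 hi, map_zero]
    exact zero_le

theorem aeval_mem [Algebra K M] {W : ValuationSubring M} {p : K[X]} {x : M}
    (hp : ∀ i, algebraMap K M (p.coeff i) ∈ W) (hx : x ∈ W) : aeval x p ∈ W := by
  rw [aeval_eq_sum_range]
  exact sum_mem fun i _ => by rw [Algebra.smul_def]; exact mul_mem (hp i) (pow_mem hx i)

/-- denominators which are good for all the valuation rings over `O` -/
theorem ex_den [Algebra K M] (V : ValuationSubring M) {x : M} (hx : IsAlgebraic K x)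
    (xV : x ∈ V) : ∃ s : M, s ∉ V.nonunits ∧ ∀ W : ValuationSubring M,
      V.comap (algebraMap K M) ≤ W.comap (algebraMap K M) → s ∈ W ∧ s * x ∈ W := by
  classical
  set O := V.comap (algebraMap K M) with hO
  obtain ⟨p, j₀, hp, pO, p1⟩ := ex_rel O hx
  have ex : ∃ j, ∀ i, j < i → p.coeff i ∈ O.nonunits :=
    ⟨p.natDegree, fun i hi => by rw [coeff_eq_zero_of_natDegree_lt hi]; exact zero_mem _⟩
  obtain ⟨j, hj, mn⟩ : ∃ j, (∀ i, j < i → p.coeff i ∈ O.nonunits) ∧ p.coeff j ∉ O.nonunits := by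
    refine ⟨Nat.find ex, Nat.find_spec ex, fun h => ?_⟩
    rcases e : Nat.find ex with _ | k
    · have s := Nat.find_spec ex
      rw [e] at s h
      rcases j₀ with _ | j₀
      · exact one_nu O (p1 ▸ h)
      · exact one_nu O (p1 ▸ s _ (Nat.succ_pos _))
    · refine Nat.find_min ex (m := k) (by omega) fun i hi => ?_
      rcases (show i = Nat.find ex ∨ Nat.find ex < i by omega) with r | r
      · exact r ▸ h
      · exact Nat.find_spec ex i r
  set q := p /ₘ X ^ j with hq
  set r := p %ₘ X ^ j with hr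
  have mo : (X ^ j : K[X]).Monic := monic_X_pow j
  have e : r + X ^ j * q = p := modByMonic_add_div p _
  have rd : ∀ i, j ≤ i → r.coeff i = 0 := fun i hi => coeff_eq_zero_of_degree_lt
    ((degree_modByMonic_lt p mo).trans_le (by rw [degree_X_pow]; exact_mod_cast hi))
  have qc : ∀ i, q.coeff i = p.coeff (i + j) := fun i => by
    rw [← e, coeff_add, rd _ (by omega), zero_add, coeff_X_pow_mul]
  have rc : ∀ i, i < j → r.coeff i = p.coeff i := fun i hi => by
    rw [← e, coeff_add, coeff_X_pow_mul', if_neg (by omega), add_zero]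
  have ee : aeval x r + x ^ j * aeval x q = 0 := by
    rw [← hp, ← e]; simp
  have su : aeval x q ∉ V.nonunits := fun h => mn <| by
    have e2 : aeval x q = algebraMap K M (p.coeff j) + x * aeval x q.divX := by
      conv_lhs => rw [← divX_mul_X_add q]
      simp [qc, add_comm, mul_comm]
    have : aeval x q.divX ∈ V.nonunits := by
      rw [aeval_eq_sum_range]
      refine sum_mem fun i _ => ?_
      rw [Algebra.smul_def, mul_comm, coeff_divX, qc]
      exact nu_mul (pow_mem xV i) ((nu_comap _ V _).1 (hj _ (by omega)))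
    rw [nu_comap, show algebraMap K M (p.coeff j) = aeval x q - x * aeval x q.divX by
      rw [e2]; ring]
    exact sub_mem h (nu_mul xV this)
  refine ⟨aeval x q, su, fun W h => ?_⟩
  by_cases xW : x ∈ W
  · have := aeval_mem (W := W) (p := q) (fun i => by rw [qc]; exact h (pO _)) xW
    exact ⟨this, mul_mem this xW⟩
  have xi : x⁻¹ ∈ W := (W.mem_or_inv_mem x).resolve_left xW
  have x0 : x ≠ 0 := fun z => xW (z ▸ zero_mem _)
  have : aeval x q * x ∈ W := by
    have e3 : aeval x q * x = -(aeval x r * (x * x⁻¹ ^ j)) := by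
      rw [show aeval x r = -(x ^ j * aeval x q) by linear_combination ee, inv_pow]
      field_simp
    rw [e3, aeval_eq_sum_range, Finset.sum_mul]
    refine neg_mem (sum_mem fun i _ => ?_)
    by_cases hi : i < j
    · rw [Algebra.smul_def, mul_assoc, rc i hi, show x ^ i * (x * x⁻¹ ^ j) = x⁻¹ ^ (j - i - 1) by
        obtain ⟨k, rfl⟩ : ∃ k, j = i + 1 + k := ⟨j - i - 1, by omega⟩
        rw [show i + 1 + k - i - 1 = k by omega, inv_pow, inv_pow]
        field_simp
        ring]
      exact mul_mem (h (pO _)) (pow_mem xi _)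
    · rw [rd i (by omega), zero_smul, zero_mul]
      exact zero_mem _
  exact ⟨by simpa [x0] using mul_mem this xi, this⟩

/-- comparable valuation rings with the same restriction are equal -/
theorem eq_of_le [Algebra K M] [Algebra.IsAlgebraic K M] {V W : ValuationSubring M} (h : W ≤ V)
    (e : W.comap (algebraMap K M) = V.comap (algebraMap K M)) : W = V := by
  refine le_antisymm h fun x xV => by_contra fun xW => ?_
  have x0 : x ≠ 0 := fun z => xW (z ▸ zero_mem _)
  have yW : x⁻¹ ∈ W.nonunits := W.inv_mem_nonunits_iff.2 (Or.inr xW)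
  obtain ⟨p, j₀, hp, pO, p1⟩ := ex_rel (V.comap (algebraMap K M))
    (Algebra.IsAlgebraic.isAlgebraic (R := K) x⁻¹)
  classical
  have ex : ∃ j, p.coeff j ∉ (V.comap (algebraMap K M)).nonunits := ⟨j₀, p1 ▸ one_nu _⟩
  obtain ⟨j, hj, mn⟩ : ∃ j, p.coeff j ∉ (V.comap (algebraMap K M)).nonunits ∧
      ∀ i < j, p.coeff i ∈ (V.comap (algebraMap K M)).nonunits :=
    ⟨_, Nat.find_spec ex, fun i l => not_not.1 (Nat.find_min ex l)⟩
  refine hj ?_
  rw [← e, nu_comap]
  have s : ∑ i ∈ Finset.range (p.natDegree + j + 1), algebraMap K M (p.coeff i) * x⁻¹ ^ i * x ^ j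
      = 0 := by
    rw [← Finset.sum_mul, show ∑ i ∈ Finset.range (p.natDegree + j + 1),
      algebraMap K M (p.coeff i) * x⁻¹ ^ i = aeval x⁻¹ p by
        rw [aeval_eq_sum_range' (n := p.natDegree + j + 1) (by omega)]
        simp only [Algebra.smul_def], hp, zero_mul]
  rw [← Finset.add_sum_erase _ _ (a := j) (by simp), mul_assoc, ← mul_pow,
    inv_mul_cancel₀ x0, one_pow, mul_one, add_eq_zero_iff_eq_neg] at s
  rw [s]
  refine neg_mem (sum_mem fun i hi => ?_)
  rcases lt_or_gt_of_ne (Finset.ne_of_mem_erase hi) with l | l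
  · refine ValuationSubring.nonunits_le_nonunits.2 h ?_
    have : algebraMap K M (p.coeff i) ∈ V.nonunits :=
      (nu_comap _ V _).1 (mn i l)
    rw [mul_assoc, mul_comm]
    exact nu_mul (mul_mem (pow_mem (h (W.nonunits_subset yW)) _) (pow_mem xV _)) this
  · obtain ⟨k, rfl⟩ : ∃ k, i = j + k + 1 := ⟨i - j - 1, by omega⟩
    rw [show algebraMap K M (p.coeff (j + k + 1)) * x⁻¹ ^ (j + k + 1) * x ^ j =
      algebraMap K M (p.coeff (j + k + 1)) * x⁻¹ ^ k * x⁻¹ by
        rw [inv_pow, inv_pow]; field_simp; ring]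
    exact nu_mul (mul_mem (show _ ∈ W.comap _ from e ▸ pO _)
      (pow_mem (W.nonunits_subset yW) _)) yW

open scoped Pointwise in
/-- the valuation rings over `O` are conjugate -/
theorem conj [Algebra K M] [IsGalois K M] {V W : ValuationSubring M}
    (e : V.comap (algebraMap K M) = W.comap (algebraMap K M)) :
    ∃ g : M ≃ₐ[K] M, W = V.comap (g : M →+* M) := by
  set O := V.comap (algebraMap K M) with hO
  let B : Subring M := ⨅ U : {U : ValuationSubring M // O ≤ U.comap (algebraMap K M)},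
    U.1.toSubring
  have mB : ∀ x, x ∈ B ↔ ∀ U : ValuationSubring M, O ≤ U.comap (algebraMap K M) → x ∈ U :=
    fun x => by simp [B, Subring.mem_iInf]
  have st : ∀ (g : M ≃ₐ[K] M) (x : M), x ∈ B → g x ∈ B := fun g x hx => (mB _).2 fun U hU =>
    (mB _).1 hx (U.comap (g : M →+* M)) fun a ha => by
      simpa [ValuationSubring.mem_comap] using hU ha
  let : MulSemiringAction (M ≃ₐ[K] M) B :=
    { smul g x := ⟨g x.1, st g _ x.2⟩
      one_smul _ := rfl
      mul_smul _ _ _ := rfl
      smul_zero g := Subtype.ext (map_zero g)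
      smul_add g x y := Subtype.ext (map_add g x.1 y.1)
      smul_one g := Subtype.ext (map_one g)
      smul_mul g x y := Subtype.ext (map_mul g x.1 y.1) }
  have cs : ∀ (g : M ≃ₐ[K] M) (x : B), (g • x).1 = g x.1 := fun _ _ => rfl
  let φ : O →+* B := ((algebraMap K M).comp O.subtype).codRestrict B fun a =>
    (mB _).2 fun U hU => hU a.2
  let : Algebra O B := φ.toAlgebra
  have ca : ∀ a : O, (algebraMap O B a).1 = algebraMap K M a.1 := fun _ => rfl
  have : SMulCommClass (M ≃ₐ[K] M) O B := ⟨fun g a b => Subtype.ext (by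
    rw [cs, Algebra.smul_def, Algebra.smul_def, Subring.coe_mul, Subring.coe_mul, map_mul, ca, cs,
      g.commutes])⟩
  have : Algebra.IsInvariant O B (M ≃ₐ[K] M) := ⟨fun b hb => by
    obtain ⟨m, hm⟩ := (InfiniteGalois.mem_range_algebraMap_iff_fixed (k := K) b.1).2
      fun g => by rw [← cs, hb g]
    exact ⟨⟨m, show algebraMap K M m ∈ V from hm ▸ (mB _).1 b.2 V le_rfl⟩, Subtype.ext hm⟩⟩
  let : TopologicalSpace B := ⊥
  have : DiscreteTopology B := ⟨rfl⟩
  have : ContinuousSMul (M ≃ₐ[K] M) B := by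
    rw [continuousSMul_iff_stabilizer_isOpen]
    intro x
    convert stabilizer_isOpen_of_isIntegral (K := K) (L := M) x.1 using 1
    ext g
    simp only [SetLike.mem_coe, MulAction.mem_stabilizer_iff]
    exact ⟨fun h => congrArg Subtype.val h, fun h => Subtype.ext h⟩
  let ct : ∀ U : ValuationSubring M, O ≤ U.comap (algebraMap K M) → Ideal B := fun U hU =>
    (IsLocalRing.maximalIdeal U).comap (B.subtype.codRestrict U.toSubring fun x =>
      (mB _).1 x.2 U hU)
  have mc : ∀ U hU (x : B), x ∈ ct U hU ↔ x.1 ∈ U.nonunits := fun U hU x =>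
    (U.coe_mem_nonunits_iff (a := ⟨x.1, (mB _).1 x.2 U hU⟩)).symm
  have : (ct V le_rfl).IsPrime := Ideal.comap_isPrime _ _
  have : (ct W e.le).IsPrime := Ideal.comap_isPrime _ _
  obtain ⟨g, hg⟩ := Algebra.IsInvariant.exists_smul_of_under_eq_of_profinite (A := O) (B := B)
    (G := M ≃ₐ[K] M) (ct W e.le) (ct V le_rfl) (by
      ext a
      rw [Ideal.mem_under, Ideal.mem_under, mc W e.le, mc V le_rfl, ca, ← nu_comap, ← nu_comap,
        ← e])
  have ec : (V.comap (g : M →+* M)).comap (algebraMap K M) = O := by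
    ext a
    simp [hO, ValuationSubring.mem_comap]
  refine ⟨g, eq_of_le (K := K) (fun x hx => ?_) (e.symm.trans ec.symm)⟩
  obtain ⟨s, su, hs⟩ := ex_den W (Algebra.IsAlgebraic.isAlgebraic (R := K) x) hx
  have sB : s ∈ B := (mB _).2 fun U hU => (hs U (e ▸ hU)).1
  have n : g s ∉ V.nonunits := fun h => su <| by
    have : g • (⟨s, sB⟩ : B) ∈ ct V le_rfl := (mc V le_rfl _).2 h
    rw [hg, Ideal.smul_mem_pointwise_smul_iff] at this
    exact (mc W e.le ⟨s, sB⟩).1 this
  rw [ValuationSubring.mem_nonunits_iff_or, not_or, not_not] at n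
  have := mul_mem n.2 (hs (V.comap (g : M →+* M)) (ec ▸ e ▸ le_rfl)).2
  simpa [ValuationSubring.mem_comap, n.1] using this

end rings

/-! ## the space -/

/-- the valuation rings of `K` over `A` -/
def VV {C : Type} [Field C] (A : ValuationSubring C) (K : Type) [Field K] [Algebra C K] : Type :=
  {O : ValuationSubring K // O.comap (algebraMap C K) = A}

namespace VV

variable {C : Type} [Field C] {A : ValuationSubring C} {K : Type} [Field K] [Algebra C K]

/-- the basic open sets -/
def U (x : K) : Set (VV A K) := {O | x ∈ O.1}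

theorem mem_U {x : K} {O : VV A K} : O ∈ U x ↔ x ∈ O.1 := Iff.rfl

instance : TopologicalSpace (VV A K) := .generateFrom (range U)

theorem ext' {O P : VV A K} (h : ∀ x, x ∈ O.1 ↔ x ∈ P.1) : O = P :=
  Subtype.ext (ValuationSubring.ext _ _ h)

theorem const (O : VV A K) (c : C) : algebraMap C K c ∈ O.1 ↔ c ∈ A := by
  rw [← ValuationSubring.mem_comap, O.2]

theorem const_nu (O : VV A K) (c : C) : algebraMap C K c ∈ O.1.nonunits ↔ c ∈ A.nonunits := by
  rw [← nu_comap, O.2]

instance : Nonempty (VV A K) := (ex_ext (algebraMap C K) A).elim fun V h => ⟨⟨V, h⟩⟩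

theorem isOpen_U (x : K) : IsOpen (U x : Set (VV A K)) :=
  TopologicalSpace.isOpen_generateFrom_of_mem ⟨x, rfl⟩

theorem isClosed_nu (x : K) : IsClosed {O : VV A K | x ∈ O.1.nonunits} := by
  by_cases h : x = 0
  · simp [h]
  · convert (isOpen_U (A := A) x⁻¹).isClosed_compl using 1
    ext O
    simp [ValuationSubring.mem_nonunits_iff_or, h, mem_U]

theorem le_nhds {F : Filter (VV A K)} {O : VV A K} : F ≤ 𝓝 O ↔ ∀ x ∈ O.1, U x ∈ F := by
  refine ⟨fun h x hx => h ((isOpen_U x).mem_nhds hx), fun h => ?_⟩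
  rw [show 𝓝 O = _ from TopologicalSpace.nhds_generateFrom]
  refine le_iInf₂ ?_
  rintro _ ⟨hO, x, rfl⟩
  exact le_principal_iff.2 (h x hO)

/-- the neighbourhoods -/
theorem mem_nhds {S : Set (VV A K)} {O : VV A K} :
    S ∈ 𝓝 O ↔ ∃ s : Finset K, (∀ x ∈ s, x ∈ O.1) ∧ ∀ P : VV A K, (∀ x ∈ s, x ∈ P.1) → P ∈ S := by
  classical
  refine ⟨fun h => ?_, fun ⟨s, a, b⟩ => mem_of_superset
    ((biInter_finset_mem s).2 fun x hx => (isOpen_U x).mem_nhds (a x hx)) fun P hP =>
      b P (by simpa [mem_U] using hP)⟩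
  let F : Filter (VV A K) :=
    { sets := {S | ∃ s : Finset K, (∀ x ∈ s, x ∈ O.1) ∧
        ∀ P : VV A K, (∀ x ∈ s, x ∈ P.1) → P ∈ S}
      univ_sets := ⟨∅, by simp, by simp⟩
      sets_of_superset := fun ⟨s, a, b⟩ h => ⟨s, a, fun P hP => h (b P hP)⟩
      inter_sets := fun ⟨s, a, b⟩ ⟨t, c, d⟩ => ⟨s ∪ t,
        fun x hx => (Finset.mem_union.1 hx).elim (a x) (c x), fun P hP =>
          ⟨b P fun x hx => hP x (Finset.mem_union_left _ hx),
            d P fun x hx => hP x (Finset.mem_union_right _ hx)⟩⟩ }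
  exact (le_nhds (F := F)).2 (fun x hx => ⟨{x}, by simpa using hx, by simp [mem_U]⟩) h

theorem specializes_iff {O P : VV A K} : O ⤳ P ↔ P.1 ≤ O.1 := by
  rw [specializes_iff_pure, le_nhds]
  rfl

/-- open sets contain the larger rings -/
theorem up {S : Set (VV A K)} (h : IsOpen S) {O P : VV A K} (l : P.1 ≤ O.1) (hP : P ∈ S) : O ∈ S :=
  (specializes_iff.2 l).mem_open h hP

/-- closed sets contain the smaller rings -/
theorem dn {S : Set (VV A K)} (h : IsClosed S) {O P : VV A K} (l : P.1 ≤ O.1) (hO : O ∈ S) :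
    P ∈ S := (specializes_iff.2 l).mem_closed h hO

/-- the limit of an ultrafilter in the patch topology -/
def lim (F : Ultrafilter (VV A K)) : VV A K :=
  ⟨{ carrier := {x | U x ∈ F}
     mul_mem' := fun a b => mem_of_superset (inter_mem a b) fun O h => O.1.mul_mem _ _ h.1 h.2
     one_mem' := univ_mem' fun O => O.1.one_mem
     add_mem' := fun a b => mem_of_superset (inter_mem a b) fun O h => O.1.add_mem _ _ h.1 h.2
     zero_mem' := univ_mem' fun O => O.1.zero_mem
     neg_mem' := fun a => mem_of_superset a fun O h => O.1.neg_mem _ h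
     mem_or_inv_mem' := fun x => Ultrafilter.union_mem_iff.1
       (univ_mem' fun O => O.1.mem_or_inv_mem x) }, by
    ext c
    change U (algebraMap C K c) ∈ F ↔ _
    refine ⟨fun h => ?_, fun h => univ_mem' fun O => (O.const c).2 h⟩
    obtain ⟨O, hO⟩ := Ultrafilter.nonempty_of_mem h
    exact (O.const c).1 hO⟩

theorem mem_lim {F : Ultrafilter (VV A K)} {x : K} : x ∈ (lim F).1 ↔ U x ∈ F := Iff.rfl

theorem nu_lim {F : Ultrafilter (VV A K)} {x : K} :
    x ∈ (lim F).1.nonunits ↔ {O : VV A K | x ∈ O.1.nonunits} ∈ F := by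
  by_cases h : x = 0
  · simp only [h, zero_mem, ofPred_true, true_iff]
    exact univ_mem
  · simp only [ValuationSubring.mem_nonunits_iff_or, h, false_or, mem_lim]
    exact Ultrafilter.compl_mem_iff_notMem.symm

theorem le_lim (F : Ultrafilter (VV A K)) : (F : Filter _) ≤ 𝓝 (lim F) := le_nhds.2 fun _ h => h

theorem le_nhds_iff {F : Ultrafilter (VV A K)} {O : VV A K} :
    (F : Filter _) ≤ 𝓝 O ↔ O.1 ≤ (lim F).1 := le_nhds

/-- closed in the patch topology -/
def Pc (Z : Set (VV A K)) : Prop := ∀ F : Ultrafilter (VV A K), Z ∈ F → lim F ∈ Z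

theorem Pc.isCompact {Z : Set (VV A K)} (h : Pc Z) : IsCompact Z :=
  isCompact_iff_ultrafilter_le_nhds'.2 fun F hF => ⟨_, h F hF, le_lim F⟩

theorem pc_univ : Pc (univ : Set (VV A K)) := fun _ _ => trivial

instance : CompactSpace (VV A K) := ⟨pc_univ.isCompact⟩

theorem pc_U (x : K) : Pc (U x : Set (VV A K)) := fun _ h => h

theorem pc_closed {Z : Set (VV A K)} (h : IsClosed Z) : Pc Z := fun F hF =>
  h.mem_of_tendsto (f := id) (le_lim F) hF

theorem Pc.inter {Z Y : Set (VV A K)} (h : Pc Z) (k : Pc Y) : Pc (Z ∩ Y) := fun F hF =>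
  ⟨h F (mem_of_superset hF inter_subset_left), k F (mem_of_superset hF inter_subset_right)⟩

theorem Pc.union {Z Y : Set (VV A K)} (h : Pc Z) (k : Pc Y) : Pc (Z ∪ Y) := fun F hF =>
  (Ultrafilter.union_mem_iff.1 hF).imp (h F) (k F)

theorem pc_iInter {ι : Sort*} {Z : ι → Set (VV A K)} (h : ∀ i, Pc (Z i)) : Pc (⋂ i, Z i) :=
  fun F hF => mem_iInter.2 fun i => h i F (mem_of_superset hF (iInter_subset _ i))

theorem pc_iUnion {ι : Type*} [Finite ι] {Z : ι → Set (VV A K)} (h : ∀ i, Pc (Z i)) :
    Pc (⋃ i, Z i) := fun F hF => by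
  obtain ⟨_, ⟨i, rfl⟩, hi⟩ := (Ultrafilter.finite_sUnion_mem_iff (finite_range Z)).1 hF
  exact mem_iUnion.2 ⟨i, h i F hi⟩

theorem pc_all (S : Set K) : Pc {O : VV A K | ∀ x ∈ S, x ∈ O.1} := fun _ hF x hx =>
  mem_of_superset hF fun _ h => h x hx

/-- patch closed and stable under specialisation -/
theorem Pc.isClosed {Z : Set (VV A K)} (h : Pc Z)
    (s : ∀ O ∈ Z, ∀ P : VV A K, P.1 ≤ O.1 → P ∈ Z) : IsClosed Z :=
  isClosed_iff_ultrafilter.2 fun P F l hF => s _ (h F hF) P (le_nhds_iff.1 l)

/-- the closure of a patch closed set -/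
theorem Pc.mem_closure {Z : Set (VV A K)} (h : Pc Z) {P : VV A K} :
    P ∈ closure Z ↔ ∃ O ∈ Z, P.1 ≤ O.1 := by
  refine ⟨fun k => ?_, fun ⟨O, a, b⟩ => dn isClosed_closure b (subset_closure a)⟩
  obtain ⟨F, hF, l⟩ := mem_closure_iff_ultrafilter.1 k
  exact ⟨_, h F hF, le_nhds_iff.1 l⟩

/-- patch open and stable under generalisation -/
theorem Pc.isOpen {S : Set (VV A K)} (h : Pc Sᶜ)
    (s : ∀ O ∈ S, ∀ P : VV A K, O.1 ≤ P.1 → P ∈ S) : IsOpen S :=
  isClosed_compl_iff.1 (h.isClosed fun O hO P l hP => hO (s P hP O l))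

/-- compact open sets are patch closed -/
theorem pc_of_open {S : Set (VV A K)} (o : IsOpen S) (c : IsCompact S) : Pc S := fun F hF => by
  obtain ⟨O, hO, l⟩ := isCompact_iff_ultrafilter_le_nhds'.1 c F hF
  exact up o (le_nhds_iff.1 l) hO

/-! ## maps -/

section maps

variable {C' : Type} [Field C'] {A' : ValuationSubring C'} {M : Type} [Field M] [Algebra C' M]

/-- the ring homomorphism `f` induces a map of the spaces -/
def Ok (A : ValuationSubring C) (A' : ValuationSubring C') (f : K →+* M) : Prop :=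
  ∀ O : VV A' M, (O.1.comap f).comap (algebraMap C K) = A

theorem ok_of {f : K →+* M} (s : C →+* C') (e : ∀ c, f (algebraMap C K c) = algebraMap C' M (s c))
    (h : ∀ c, s c ∈ A' ↔ c ∈ A) : Ok A A' f := fun O => by
  ext c
  rw [ValuationSubring.mem_comap, ValuationSubring.mem_comap, e, O.const, h]

/-- the map induced by a ring homomorphism -/
def cm {f : K →+* M} (h : Ok A A' f) (O : VV A' M) : VV A K := ⟨O.1.comap f, h O⟩

variable {f : K →+* M} (h : Ok A A' f)

theorem mem_cm {O : VV A' M} {x : K} : x ∈ (cm h O).1 ↔ f x ∈ O.1 := Iff.rfl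

theorem nu_cm {O : VV A' M} {x : K} : x ∈ (cm h O).1.nonunits ↔ f x ∈ O.1.nonunits :=
  nu_comap f O.1 x

theorem cm_cont : Continuous (cm h) :=
  continuous_generateFrom_iff.2 (by rintro _ ⟨x, rfl⟩; exact isOpen_U (f x))

theorem cm_lim (F : Ultrafilter (VV A' M)) : cm h (lim F) = lim (F.map (cm h)) := rfl

theorem Pc.preimage {Z : Set (VV A K)} (z : Pc Z) : Pc (cm h ⁻¹' Z) := fun F hF =>
  z (F.map (cm h)) hF

theorem Pc.image {Z : Set (VV A' M)} (z : Pc Z) : Pc (cm h '' Z) := fun F hF => by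
  have : (comap (cm h) F ⊓ 𝓟 Z).NeBot := by
    rw [← map_neBot_iff (cm h), inf_comm, Filter.push_pull, map_principal, inf_comm]
    exact (inf_eq_left.2 (le_principal_iff.2 hF)).symm ▸ F.neBot
  obtain ⟨G, l⟩ := Ultrafilter.exists_le (comap (cm h) F ⊓ 𝓟 Z)
  refine ⟨lim G, z G (le_principal_iff.1 (l.trans inf_le_right)), ?_⟩
  rw [cm_lim, show G.map (cm h) = F from Ultrafilter.coe_injective
    (F.unique (map_le_iff_le_comap.2 (l.trans inf_le_left)))]

end maps

section res

variable {M : Type} [Field M] [Algebra C M]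

theorem ok_alg (f : K →ₐ[C] M) : Ok A A (f : K →+* M) :=
  ok_of (RingHom.id C) f.commutes fun _ => Iff.rfl

/-- restriction -/
def res (f : K →ₐ[C] M) : VV A M → VV A K := cm (ok_alg f)

variable (f : K →ₐ[C] M)

theorem mem_res {O : VV A M} {x : K} : x ∈ (res f O).1 ↔ f x ∈ O.1 := Iff.rfl

theorem nu_res {O : VV A M} {x : K} : x ∈ (res f O).1.nonunits ↔ f x ∈ O.1.nonunits :=
  nu_comap _ O.1 x

theorem res_res {N : Type} [Field N] [Algebra C N] (g : M →ₐ[C] N) (O : VV A N) :
    res f (res g O) = res (g.comp f) O := rfl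

theorem res_cont : Continuous (res f : VV A M → VV A K) := cm_cont _

/-- specialisations lift -/
theorem res_down (W : VV A M) (O : VV A K) (h : O.1 ≤ (res f W).1) :
    ∃ V : VV A M, V.1 ≤ W.1 ∧ res f V = O := by
  obtain ⟨V, a, b⟩ := down (f : K →+* M) W.1 O.1 h
  refine ⟨⟨V, ?_⟩, a, Subtype.ext b⟩
  ext c
  rw [ValuationSubring.mem_comap, ← f.commutes, ← O.const, ← b]
  rfl

theorem res_surj : Function.Surjective (res f : VV A M → VV A K) := fun O => by
  obtain ⟨V, b⟩ := ex_ext (f : K →+* M) O.1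
  refine ⟨⟨V, ?_⟩, Subtype.ext b⟩
  ext c
  rw [ValuationSubring.mem_comap, ← f.commutes, ← O.const, ← b]
  rfl

theorem res_closed : IsClosedMap (res f : VV A M → VV A K) := fun Z z =>
  ((pc_closed z).image _).isClosed (by
    rintro _ ⟨W, hW, rfl⟩ P l
    obtain ⟨V, a, b⟩ := res_down f W P l
    exact ⟨V, dn z a hW, b⟩)

theorem res_quot : IsQuotientMap (res f : VV A M → VV A K) :=
  (res_closed f).isQuotientMap (res_cont f) (res_surj f)

end res

section tower

variable {M : Type} [Field M] [Algebra C M] [Algebra K M] [IsScalarTower C K M]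

variable (K M) in
/-- restriction in a tower -/
abbrev rs : VV A M → VV A K := res (IsScalarTower.toAlgHom C K M)

/-- the action of an automorphism -/
abbrev tw (g : M ≃ₐ[K] M) : VV A M → VV A M := res ((g : M →ₐ[K] M).restrictScalars C)

theorem rs_tw (g : M ≃ₐ[K] M) (O : VV A M) : rs K M (tw g O) = rs K M O :=
  ext' fun x => by simp [mem_res]

theorem rs_eq_of_le [Algebra.IsAlgebraic K M] {V W : VV A M} (h : W.1 ≤ V.1)
    (e : rs K M W = rs K M V) : W = V :=
  Subtype.ext (eq_of_le (K := K) h (congrArg Subtype.val e))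

theorem rs_conj [IsGalois K M] {V W : VV A M} :
    rs K M V = rs K M W ↔ ∃ g : M ≃ₐ[K] M, W = tw g V :=
  ⟨fun e => (conj (K := K) (V := V.1) (W := W.1) (congrArg Subtype.val e)).imp
    fun _ h => Subtype.ext h,
    fun ⟨g, h⟩ => by rw [h, rs_tw]⟩

theorem rs_open_gal [IsGalois K M] : IsOpenMap (rs K M : VV A M → VV A K) := fun S o => by
  rw [← (res_quot (IsScalarTower.toAlgHom C K M)).isOpen_preimage]
  convert isOpen_iUnion fun g : M ≃ₐ[K] M => o.preimage (res_cont
    ((g : M →ₐ[K] M).restrictScalars C)) using 1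
  ext V
  simp only [mem_preimage, mem_image, mem_iUnion]
  exact ⟨fun ⟨W, a, b⟩ => (rs_conj.1 b.symm).imp fun g (e : W = tw g V) => show tw g V ∈ S from e ▸ a,
    fun ⟨g, a⟩ => ⟨_, a, rs_tw g V⟩⟩

theorem rs_open [Algebra.IsSeparable K M] : IsOpenMap (rs K M : VV A M → VV A K) := fun S o => by
  let N := SeparableClosure M
  have : IsScalarTower C K N := .of_algebraMap_eq fun c => by
    rw [IsScalarTower.algebraMap_apply K M N, ← IsScalarTower.algebraMap_apply C K M,
      ← IsScalarTower.algebraMap_apply C M N]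
  have : Algebra.IsSeparable K N := Algebra.IsSeparable.trans K M N
  have : IsSepClosure K N := ⟨inferInstance, this⟩
  have := rs_open_gal (A := A) (K := K) (M := N) _ (o.preimage (res_cont
    (IsScalarTower.toAlgHom C M N)))
  convert this using 1
  ext P
  refine ⟨?_, fun ⟨V, a, b⟩ => ⟨_, a, b ▸ ext' fun x => ?_⟩⟩
  · rintro ⟨W, a, rfl⟩
    obtain ⟨V, rfl⟩ := res_surj (IsScalarTower.toAlgHom C M N) W
    exact ⟨V, a, ext' fun x => by
      simp [mem_res, ← IsScalarTower.algebraMap_apply]⟩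
  · simp [mem_res, ← IsScalarTower.algebraMap_apply]

theorem rs_fin [Algebra.IsSeparable K M] [FiniteDimensional K M] (O : VV A K) :
    {V : VV A M | rs K M V = O}.Finite := by
  let N := SeparableClosure M
  have : IsScalarTower C K N := .of_algebraMap_eq fun c => by
    rw [IsScalarTower.algebraMap_apply K M N, ← IsScalarTower.algebraMap_apply C K M,
      ← IsScalarTower.algebraMap_apply C M N]
  have : Algebra.IsSeparable K N := Algebra.IsSeparable.trans K M N
  have : IsSepClosure K N := ⟨inferInstance, this⟩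
  obtain ⟨W, rfl⟩ := res_surj (IsScalarTower.toAlgHom C K N) O
  refine (finite_range fun f : M →ₐ[K] N => res (f.restrictScalars C) W).subset fun V hV => ?_
  obtain ⟨V', rfl⟩ := res_surj (IsScalarTower.toAlgHom C M N) V
  obtain ⟨g, rfl⟩ := (rs_conj (K := K) (V := W) (W := V')).1 (hV.symm.trans (ext' fun x => by
    simp [mem_res, ← IsScalarTower.algebraMap_apply]))
  exact ⟨(g : N →ₐ[K] N).comp (IsScalarTower.toAlgHom K M N), rfl⟩

end tower

theorem res_open {M : Type} [Field M] [Algebra C M] (f : K →ₐ[C] M)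
    (h : ∀ y : M, ∃ p : K[X], p.Separable ∧ eval₂ (f : K →+* M) y p = 0) :
    IsOpenMap (res f : VV A M → VV A K) := by
  let := (f : K →+* M).toAlgebra
  have : IsScalarTower C K M := .of_algebraMap_eq fun c => (f.commutes c).symm
  have : Algebra.IsSeparable K M := ⟨fun y => by
    obtain ⟨p, s, e⟩ := h y
    exact s.of_dvd (minpoly.dvd K y e)⟩
  exact rs_open (A := A) (K := K) (M := M)

end VV

end Vale.Agent.P022K.DY
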